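import Vale.Agent.P092.H103.CA1

/-!
P092 (helper520), team D, block [D-COS]: bookkeeping for the cocycle of a discrete subgroup
`Λ` of `E` of finite covolume, in the letters of H103/Lat, H103/CA1.

* `ae_norm_le` (C1): a decomposable operator maps fields bounded by `C` to fields bounded by
  `‖B‖ C`.
* `coc_small` : `ν {x | coc Λ g x ≠ 1} ≤ δ` for `g` near `1`.
* `near_le` (C2): `‖M^ ζ‖² ≤ ‖M^ (π g⁻¹ ζ)‖² + (‖M‖ C)² ν {x | coc Λ g x ≠ 1}`.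
* `coc_pin` , `mult_le` (C3): if `(b g) x` and `(b g₀) x` lie in the compact set `Q` and the two
  values of the cocycle agree then `b g g₀⁻¹ b⁻¹` lies in a fixed compact set.
-/

set_option linter.all false

open scoped InnerProductSpace ENNReal Pointwise
open Set Filter Topology MeasureTheory ContinuousLinearMap

namespace Vale.Agent.P092.H520

open Vale.Agent.P092.H790 Vale.Agent.P092.H85 Vale.Agent.P092.H160 Vale.Agent.P092.H103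

section main

variable {E : Type} [Group E] [TopologicalSpace E] [IsTopologicalGroup E] [LocallyCompactSpace E]
  [SecondCountableTopology E] [T2Space E] [MeasurableSpace E] [BorelSpace E]
  {Λ : Subgroup E} [DiscreteTopology Λ] [MeasurableSpace (E ⧸ Λ)] [BorelSpace (E ⧸ Λ)]
  {ν : Measure (E ⧸ Λ)} [IsProbabilityMeasure ν] (hν : ∀ g : E, ν.map (fun x => g • x) = ν)
  {K : Type} [NormedAddCommGroup K] [InnerProductSpace ℂ K] [CompleteSpace K]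
  {V : Λ →* (K →L[ℂ] K)} (hV : ∀ g, adjoint (V g) = V g⁻¹) [Countable Λ]

/-- norm of a restriction -/
theorem norm_ind_sq {S : Set (E ⧸ Λ)} (hS : MeasurableSet S) (ξ : Lp K 2 ν) :
    ‖ind ν K S ξ‖ ^ 2 = ∫ x in S, ‖ξ x‖ ^ 2 ∂ν := by
  have h1 : ‖ind ν K S ξ‖ ^ 2 = ∫ x, ‖(ind ν K S ξ) x‖ ^ 2 ∂ν := by
    have := MeasureTheory.L2.inner_def (𝕜 := ℂ) (ind ν K S ξ) (ind ν K S ξ)
    rw [inner_self_eq_norm_sq_to_K] at this
    have h2 : ((‖ind ν K S ξ‖ ^ 2 : ℝ) : ℂ) = ((∫ x, ‖(ind ν K S ξ) x‖ ^ 2 ∂ν : ℝ) : ℂ) := by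
      push_cast
      refine this.trans ?_
      rw [← integral_complex_ofReal]
      refine integral_congr_ae (Eventually.of_forall fun x => ?_)
      change ⟪(ind ν K S ξ) x, (ind ν K S ξ) x⟫_ℂ = _
      rw [inner_self_eq_norm_sq_to_K]
      push_cast
      rfl
    exact_mod_cast h2
  rw [h1, ← integral_indicator hS]
  refine integral_congr_ae ?_
  filter_upwards [ind_ae hS ξ] with x hx
  rw [hx]
  by_cases hxS : x ∈ S <;> simp [hxS]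

/-- (C1) -/
theorem ae_norm_le {T : Lp K 2 ν →L[ℂ] Lp K 2 ν} (hT : Dcp T) {ζ : Lp K 2 ν} {C : ℝ}
    (hC : 0 ≤ C) (hζ : ∀ᵐ x ∂ν, ‖ζ x‖ ≤ C) : ∀ᵐ x ∂ν, ‖(T ζ) x‖ ≤ ‖T‖ * C := by
  have hint : ∀ ξ : Lp K 2 ν, Integrable (fun x => ‖ξ x‖ ^ 2) ν := fun ξ =>
    (Lp.memLp ξ).integrable_norm_pow (by norm_num)
  have key : (fun x => ‖(T ζ) x‖ ^ 2) ≤ᵐ[ν] fun _ => (‖T‖ * C) ^ 2 := by
    refine ae_le_of_forall_setIntegral_le (hint _) (integrable_const _) fun S hS _ => ?_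
    have e1 : H790.ind ν K S (T ζ) = T (H790.ind ν K S ζ) :=
      (congrArg (fun X : Lp K 2 ν →L[ℂ] Lp K 2 ν => X ζ) (hT S hS)).symm
    have e2 : ∫ x in S, ‖ζ x‖ ^ 2 ∂ν ≤ ∫ x in S, C ^ 2 ∂ν := by
      refine setIntegral_mono_ae (hint ζ).integrableOn (integrable_const _).integrableOn ?_
      filter_upwards [hζ] with x hx
      exact pow_le_pow_left₀ (norm_nonneg _) hx 2
    calc ∫ x in S, ‖(T ζ) x‖ ^ 2 ∂ν = ‖T (H790.ind ν K S ζ)‖ ^ 2 := by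
          rw [← norm_ind_sq hS, e1]
      _ ≤ (‖T‖ * ‖H790.ind ν K S ζ‖) ^ 2 :=
          pow_le_pow_left₀ (norm_nonneg _) (T.le_opNorm _) 2
      _ = ‖T‖ ^ 2 * ∫ x in S, ‖ζ x‖ ^ 2 ∂ν := by rw [mul_pow, norm_ind_sq hS]
      _ ≤ ‖T‖ ^ 2 * ∫ x in S, C ^ 2 ∂ν := by gcongr
      _ = ∫ x in S, (‖T‖ * C) ^ 2 ∂ν := by
          rw [← integral_const_mul]
          refine integral_congr_ae (Eventually.of_forall fun x => ?_)
          simp only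
          ring
  filter_upwards [key] with x hx
  exact le_of_sq_le_sq hx (by positivity)

/-- `ν {x | coc Λ g x ≠ 1}` is small for `g` near `1`. -/
theorem coc_small (Λ : Subgroup E) [DiscreteTopology Λ] [MeasurableSpace (E ⧸ Λ)]
    [BorelSpace (E ⧸ Λ)] (ν : Measure (E ⧸ Λ)) [IsProbabilityMeasure ν]
    (hν : ∀ g : E, ν.map (fun x => g • x) = ν) {δ : ℝ} (hδ : 0 < δ) :
    ∀ᶠ g in 𝓝 (1 : E), ν.real {x | coc Λ g x ≠ 1} ≤ δ := by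
  have h1 := (ENNReal.tendsto_nhds_zero.1 (coc_cont Λ ν hν)) (ENNReal.ofReal δ)
    (ENNReal.ofReal_pos.2 hδ)
  filter_upwards [h1] with g hg
  exact ENNReal.toReal_le_of_le_ofReal hδ.le hg

theorem coc_inv (Λ : Subgroup E) [DiscreteTopology Λ] [MeasurableSpace (E ⧸ Λ)]
    [BorelSpace (E ⧸ Λ)] (g : E) (x : E ⧸ Λ) : coc Λ g⁻¹ (g • x) = (coc Λ g x)⁻¹ := by
  have h := coc_mul Λ g⁻¹ g x
  have h1 : coc Λ (g⁻¹ * g) x = 1 := by
    apply Subtype.ext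
    rw [coc_coe, inv_mul_cancel, one_smul]
    simp
  rw [h1] at h
  exact eq_inv_of_mul_eq_one_left h.symm

include hV in
/-- values of `π g⁻¹ ζ` -/
theorem iro_inv_ae (g : E) (ζ : Lp K 2 ν) :
    ⇑(iro hν V g⁻¹ ζ) =ᵐ[ν] fun x => V (coc Λ g x)⁻¹ (ζ (g • x)) := by
  filter_upwards [iro_ae hν hV g⁻¹ ζ] with x hx
  rw [hx, inv_inv, coc_inv]

include hV in
/-- (C2) -/
theorem near_le (M : K →L[ℂ] K) {ζ : Lp K 2 ν} {C : ℝ} (hC : 0 ≤ C)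
    (hζ : ∀ᵐ x ∂ν, ‖ζ x‖ ≤ C) (g : E) :
    ‖M.compLpL 2 ν ζ‖ ^ 2 ≤ ‖M.compLpL 2 ν (iro hν V g⁻¹ ζ)‖ ^ 2 +
      (‖M‖ * C) ^ 2 * ν.real {x | coc Λ g x ≠ 1} := by
  have hint : ∀ ξ : Lp K 2 ν, Integrable (fun x => ‖ξ x‖ ^ 2) ν := fun ξ =>
    (Lp.memLp ξ).integrable_norm_pow (by norm_num)
  have hn : ∀ ξ : Lp K 2 ν, ‖ξ‖ ^ 2 = ∫ x, ‖ξ x‖ ^ 2 ∂ν := by
    intro ξ
    have := norm_ind_sq (ν := ν) MeasurableSet.univ ξ
    rw [ind_univ, setIntegral_univ] at this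
    exact this
  have hm : MeasurableSet {x | coc Λ g x ≠ 1} := (coc_meas Λ g 1).compl
  obtain ⟨η, hη⟩ : ∃ η, η = M.compLpL 2 ν ζ := ⟨_, rfl⟩
  have hηC : ∀ᵐ x ∂ν, ‖η x‖ ≤ ‖M‖ * C := by
    filter_upwards [hζ, M.coeFn_compLpL (p := 2) ζ] with x hx h2
    rw [hη, h2]
    exact (M.le_opNorm _).trans (by gcongr)
  have hηae : ∀ᵐ x ∂ν, η x = M (ζ x) := by
    filter_upwards [M.coeFn_compLpL (p := 2) ζ] with x h2
    rw [hη, h2]
  have h1 : ‖η‖ ^ 2 = ∫ x, ‖η (g • x)‖ ^ 2 ∂ν := by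
    rw [hn]
    exact ((mpres hν g).integral_comp' (f := (Homeomorph.smul g).toMeasurableEquiv)
      (fun x => ‖η x‖ ^ 2)).symm
  have hi : Integrable (fun x => ‖η (g • x)‖ ^ 2) ν :=
    (mpres hν g).integrable_comp_of_integrable (hint η)
  rw [← hη, h1, ← integral_add_compl hm hi, add_comm, hn (M.compLpL 2 ν (iro hν V g⁻¹ ζ))]
  refine add_le_add ?_ ?_
  · calc ∫ x in {x | coc Λ g x ≠ 1}ᶜ, ‖η (g • x)‖ ^ 2 ∂ν
        = ∫ x in {x | coc Λ g x ≠ 1}ᶜ, ‖(M.compLpL 2 ν (iro hν V g⁻¹ ζ)) x‖ ^ 2 ∂ν := by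
          refine setIntegral_congr_ae hm.compl ?_
          filter_upwards [ae_comp (mpres hν g) hηae, iro_inv_ae hν hV g ζ,
            M.coeFn_compLpL (p := 2) (iro hν V g⁻¹ ζ)] with x h2 h3 h4 hx
          have hx' : coc Λ g x = 1 := by
            by_contra hh; exact hx hh
          rw [h2, h4, h3, hx', inv_one, map_one]
          rfl
      _ ≤ _ := setIntegral_le_integral (hint _) (Eventually.of_forall fun x => by positivity)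
  · calc ∫ x in {x | coc Λ g x ≠ 1}, ‖η (g • x)‖ ^ 2 ∂ν
        ≤ ∫ x in {x | coc Λ g x ≠ 1}, (‖M‖ * C) ^ 2 ∂ν := by
          refine setIntegral_mono_ae hi.integrableOn (integrable_const _).integrableOn ?_
          filter_upwards [ae_comp (mpres hν g) hηC] with x hx
          exact pow_le_pow_left₀ (norm_nonneg _) hx 2
      _ = (‖M‖ * C) ^ 2 * ν.real {x | coc Λ g x ≠ 1} := by
          rw [setIntegral_const, smul_eq_mul, mul_comm]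

/-- (C3) -/
theorem coc_pin {b g g₀ : E} {x : E ⧸ Λ} (h : coc Λ (b * g) x = coc Λ (b * g₀) x) :
    b * g * g₀⁻¹ * b⁻¹ = sec Λ ((b * g) • x) * (sec Λ ((b * g₀) • x))⁻¹ := by
  have h1 := sec_mul_coc Λ (b * g) x
  have h2 := sec_mul_coc Λ (b * g₀) x
  rw [h] at h1
  have e1 : sec Λ ((b * g) • x) = b * g * sec Λ x * (coc Λ (b * g₀) x : E)⁻¹ := by
    rw [← h1]; group
  have e2 : sec Λ ((b * g₀) • x) = b * g₀ * sec Λ x * (coc Λ (b * g₀) x : E)⁻¹ := by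
    rw [← h2]; group
  rw [e1, e2]
  group

/-- (C3): multiplicity. -/
theorem mult_le {μ : Measure E} {N : Set E} {b : ℕ → E} {e : ℕ → ℝ≥0∞}
    (hE : ∀ C, IsCompact C → ∃ c : ℝ≥0∞, c ≠ ∞ ∧ ∀ n, ∀ g₀ ∈ N,
      μ {g | b n * g * g₀⁻¹ * (b n)⁻¹ ∈ C} ≤ c * e n)
    {Q : Set (E ⧸ Λ)} (hQ : IsCompact Q) :
    ∃ c : ℝ≥0∞, c ≠ ∞ ∧ ∀ n (x : E ⧸ Λ) (v : Λ),
      μ {g | g ∈ N ∧ (b n * g) • x ∈ Q ∧ coc Λ (b n * g) x = v} ≤ c * e n := by
  obtain ⟨C, hC, hsC⟩ := sec_bdd Λ Q hQ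
  have hC' : IsCompact (C * C⁻¹) := hC.mul hC.inv
  obtain ⟨c, hc, h⟩ := hE _ hC'
  refine ⟨c, hc, fun n x v => ?_⟩
  by_cases hne : ∃ g₀, g₀ ∈ N ∧ (b n * g₀) • x ∈ Q ∧ coc Λ (b n * g₀) x = v
  · obtain ⟨g₀, h1, h2, h3⟩ := hne
    refine le_trans (measure_mono ?_) (h n g₀ h1)
    rintro g ⟨g1, g2, g3⟩
    change b n * g * g₀⁻¹ * (b n)⁻¹ ∈ C * C⁻¹
    rw [coc_pin (g3.trans h3.symm)]
    exact Set.mul_mem_mul (hsC _ g2) (Set.inv_mem_inv.2 (hsC _ h2))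
  · have : {g | g ∈ N ∧ (b n * g) • x ∈ Q ∧ coc Λ (b n * g) x = v} = ∅ := by
      refine eq_empty_of_forall_notMem fun g hg => hne ⟨g, hg⟩
    rw [this, measure_empty]
    exact zero_le

end main

end Vale.Agent.P092.H520
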